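import Vale.Agent.P146.R3.H316.Order2

/-!
# P146: row J of the lower tail: the Hermite levels are not summable
-/

open MeasureTheory ProbabilityTheory Filter Topology

namespace Vale.Agent.P146.R2.H793.Tr

open Vale.Agent Vale.Agent.P146 Vale.Agent.P146.R3 Vale.Agent.P146.R3.H952
open Vale.Agent.P146.R3.P316

/-- Row J. -/
theorem stJ {β : ℝ} (hβ : 1 < β) : ∃ x : ℝ → ℝ, MinProf β x ∧
    (∀ M : ℝ, ∃ L : ℕ, M ≤ ∑ k ∈ Finset.range L, mk β x (k + 1) ^ 2 / ((k : ℝ) + 2)) ∧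
    Tendsto (fun n : ℕ => (∫ g, freeEnergy n β g ∂(disorder n)) / n) atTop
      (𝓝 (Real.log 2 + Sh.P0 β)) := by
  obtain ⟨a, -, h⟩ := order2
  have hβ0 : 0 < β := by linarith
  obtain ⟨ha0, p, x, hx, -, -, -, -, -, -, -, -, h9, -⟩ := h β hβ
  obtain ⟨L', -, hu⟩ := uni
  obtain ⟨-, p', hp', hglb, -, -⟩ := hu β hβ
  have hP0 : p' = Real.log 2 + Sh.P0 β := by
    have h4 := hglb.unique (H501.glb_sk hβ.le)
    linarith
  refine ⟨x, hx, ?_, hP0 ▸ hp'⟩
  have hpos : 0 < Real.pi / (2 * a β * β) := by positivity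
  have h1 : Tendsto (fun k : ℕ => mk β x (k + 1) ^ 2 / ((k : ℝ) + 2)) atTop
      (𝓝 (Real.pi / (2 * a β * β))) := by
    have h2 := h9.comp (tendsto_add_atTop_nat 1)
    refine h2.congr fun k => ?_
    simp only [Function.comp]
    rw [mk_eq_mom hβ hx (k + 1)]
    push_cast
    ring_nf
  have hns : ¬ Summable (fun k : ℕ => mk β x (k + 1) ^ 2 / ((k : ℝ) + 2)) := by
    intro hs
    exact hpos.ne' (tendsto_nhds_unique h1 hs.tendsto_atTop_zero)
  have hnn : ∀ k : ℕ, 0 ≤ mk β x (k + 1) ^ 2 / ((k : ℝ) + 2) := fun k => by positivity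
  have h3 := (not_summable_iff_tendsto_nat_atTop_of_nonneg hnn).1 hns
  intro M
  exact (h3.eventually_ge_atTop M).exists

end Vale.Agent.P146.R2.H793.Tr
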